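import Vale.Agent.P251EJ.DefsS

/-!
# P251EJ: permuted summands and the rational five lemma
-/

open CategoryTheory Limits Pretriangulated Preadditive

universe v u

namespace Vale.Agent.P251EJ55

open Vale.Agent.P251EJ

variable (T : Type u) [Category.{v} T] [Preadditive T]

theorem freeS : FreeS T := by
  intro G P P' E C C' j j' ρ q a π h h' hρ hq hπ ho
  refine ⟨fun V b hb => ⟨1, one_ne_zero, ?_⟩, fun V f hf => ?_⟩
  · rw [one_smul]
    refine h'.ext V b fun x => ?_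
    obtain ⟨y, rfl⟩ := hπ x
    rw [← hq, Category.assoc, hb, comp_zero]
  · obtain ⟨b, hb⟩ := h'.desc V fun x => j (hπ x).choose ≫ f
    refine ⟨1, b, one_ne_zero, ?_⟩
    rw [one_smul, ← sub_eq_zero]
    refine h.ext V _ fun x => ?_
    obtain ⟨g, e⟩ := ho x _ (hπ (π x)).choose_spec.symm
    rw [comp_sub, ← Category.assoc, hq, hb, e, ← hρ, Category.assoc, hf, sub_self]

variable {T}

theorem cov_map {G : Type} {Y Z : T} {ρ : G → (Y ⟶ Y)} {q : Y ⟶ Z} (F : T ⥤ T) [F.Additive]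
    [F.Full] [F.Faithful] [F.EssSurj] (h : Cov ρ q) : Cov (fun g => F.map (ρ g)) (F.map q) := by
  refine ⟨fun V b hb => ?_, fun V a ha => ?_⟩
  · let e := F.objObjPreimageIso V
    obtain ⟨b0, h0⟩ := F.map_surjective (b ≫ e.inv)
    obtain ⟨m, m0, hm⟩ := h.inj _ b0 (F.map_injective (by
      rw [F.map_comp, h0, ← Category.assoc, hb, zero_comp, F.map_zero]))
    refine ⟨m, m0, (cancel_mono e.inv).1 ?_⟩
    rw [zsmul_comp, ← h0, ← F.map_zsmul, hm, F.map_zero, zero_comp]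
  · let e := F.objObjPreimageIso V
    obtain ⟨a0, h0⟩ := F.map_surjective (a ≫ e.inv)
    obtain ⟨m, b, m0, hm⟩ := h.surj _ a0 fun g => F.map_injective (by
      rw [F.map_comp, h0, ← Category.assoc, ha])
    refine ⟨m, F.map b ≫ e.hom, m0, ?_⟩
    rw [← Category.assoc, ← F.map_comp, hm, F.map_zsmul, h0, zsmul_comp, Category.assoc,
      e.inv_hom_id, Category.comp_id]

theorem avg_inv {G : Type} [Group G] [Fintype G] {Y V : T} {ρ : G → (Y ⟶ Y)}
    (h : ∀ g k, ρ g ≫ ρ k = ρ (g * k)) (a : Y ⟶ V) (g : G) :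
    ρ g ≫ ∑ k, ρ k ≫ a = ∑ k, ρ k ≫ a := by
  rw [comp_sum]
  exact Fintype.sum_equiv (Equiv.mulLeft g) _ _ fun k => by
    rw [← Category.assoc, h, Equiv.coe_mulLeft]

theorem sum_const' {G : Type} [Fintype G] {X : Type*} [AddCommGroup X] (x : X) :
    ∑ _g : G, x = (Fintype.card G : ℤ) • x := by
  rw [Finset.sum_const, Finset.card_univ, natCast_zsmul]

variable (T) [HasZeroObject T] [HasShift T ℤ] [∀ n : ℤ, (shiftFunctor T n).Additive]
  [Pretriangulated T]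

theorem fiveS : FiveS T := by
  intro G _ _ A B C A' B' C' i j δ i' j' δ' ρA ρB ρC qA qB qC t t' mA mC ri rj rδ qi qj qδ iB iC
    hA hC
  have N0 : (Fintype.card G : ℤ) ≠ 0 := Nat.cast_ne_zero.2 Fintype.card_ne_zero
  refine ⟨fun V b hb => ?_, fun V a ha => ?_⟩
  · obtain ⟨m1, n1, e1⟩ := hA.inj V (i' ≫ b) (by
      rw [← Category.assoc, qi, Category.assoc, hb, comp_zero])
    obtain ⟨c, ec⟩ : ∃ c : C' ⟶ V, m1 • b = j' ≫ c :=
      Triangle.yoneda_exact₂ _ t' (m1 • b) ((comp_zsmul i' b m1).trans e1)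
    obtain ⟨u, eu⟩ : ∃ u : A⟦(1 : ℤ)⟧ ⟶ V, qC ≫ c = δ ≫ u :=
      Triangle.yoneda_exact₃ _ t (qC ≫ c) (by
        show j ≫ qC ≫ c = 0
        rw [← Category.assoc, ← qj, Category.assoc, ← ec, comp_zsmul, hb, smul_zero])
    obtain ⟨m2, u', n2, e2⟩ := (cov_map (shiftFunctor T (1 : ℤ)) hA).surj V
      (∑ k, (ρA k)⟦(1 : ℤ)⟧' ≫ u) (avg_inv (fun g k => by rw [← Functor.map_comp, mA]) u)
    have e3 : δ ≫ ∑ k, (ρA k)⟦(1 : ℤ)⟧' ≫ u = (Fintype.card G : ℤ) • (qC ≫ c) := by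
      rw [comp_sum, ← sum_const']
      refine Finset.sum_congr rfl fun k _ => ?_
      rw [← Category.assoc, ← rδ, Category.assoc, ← eu, ← Category.assoc, iC]
    obtain ⟨m3, n3, e4⟩ := hC.inj V (m2 • (Fintype.card G : ℤ) • c - δ' ≫ u') (by
      rw [comp_sub, ← Category.assoc, qδ, Category.assoc, e2, comp_zsmul, comp_zsmul, comp_zsmul,
        e3, sub_self])
    have z : j' ≫ δ' = 0 := comp_distTriang_mor_zero₂₃ _ t'
    have e5 := congrArg (j' ≫ ·) e4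
    simp only [comp_zsmul, comp_sub, comp_zero] at e5
    rw [← Category.assoc, z, zero_comp, sub_zero, ← ec, smul_smul, smul_smul, smul_smul] at e5
    exact ⟨_, mul_ne_zero (mul_ne_zero (mul_ne_zero n3 n2) N0) n1, e5⟩
  · obtain ⟨m1, a', n1, e1⟩ := hA.surj V (i ≫ a) fun g => by
      rw [← Category.assoc, ri, Category.assoc, ha]
    have z : δ ≫ i⟦(1 : ℤ)⟧' = 0 := comp_distTriang_mor_zero₃₁ _ t
    obtain ⟨m2, n2, e2⟩ := hC.inj _ (δ' ≫ a'⟦(1 : ℤ)⟧') (by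
      rw [← Category.assoc, qδ, Category.assoc, ← Functor.map_comp, e1, Functor.map_zsmul,
        Functor.map_comp, comp_zsmul, ← Category.assoc, z, zero_comp, smul_zero])
    obtain ⟨w, ew⟩ : ∃ w : B'⟦(1 : ℤ)⟧ ⟶ V⟦(1 : ℤ)⟧, (m2 • a')⟦(1 : ℤ)⟧' = (-i'⟦(1 : ℤ)⟧') ≫ w :=
      Triangle.yoneda_exact₂ _ (rot_of_distTriang _ (rot_of_distTriang _ t')) _ (by
        show δ' ≫ (m2 • a')⟦(1 : ℤ)⟧' = 0
        rw [Functor.map_zsmul, comp_zsmul, e2])
    obtain ⟨w0, rfl⟩ := (shiftFunctor T (1 : ℤ)).map_surjective w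
    have e3 : i' ≫ (-w0) = m2 • a' := (shiftFunctor T (1 : ℤ)).map_injective (by
      rw [ew, Functor.map_comp, Functor.map_neg, comp_neg, neg_comp])
    obtain ⟨c, ec⟩ : ∃ c : C ⟶ V, qB ≫ (-w0) - m2 • m1 • a = j ≫ c :=
      Triangle.yoneda_exact₂ _ t _ (by
        show i ≫ (qB ≫ (-w0) - m2 • m1 • a) = 0
        rw [comp_sub, ← Category.assoc, ← qi, Category.assoc, e3, comp_zsmul, e1, comp_zsmul,
          comp_zsmul, sub_self])
    obtain ⟨m3, c', n3, e4⟩ := hC.surj V _ (avg_inv mC c)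
    have e5 : j ≫ ∑ k, ρC k ≫ c = (Fintype.card G : ℤ) • (qB ≫ (-w0) - m2 • m1 • a) := by
      rw [comp_sum, ← sum_const']
      refine Finset.sum_congr rfl fun k _ => ?_
      rw [← Category.assoc, ← rj, Category.assoc, ← ec, comp_sub, ← Category.assoc, iB, comp_zsmul,
        comp_zsmul, ha]
    refine ⟨m3 * (Fintype.card G * (m2 * m1)), m3 • (Fintype.card G : ℤ) • (-w0) - j' ≫ c',
      mul_ne_zero n3 (mul_ne_zero N0 (mul_ne_zero n2 n1)), ?_⟩
    rw [comp_sub, ← Category.assoc, qj, Category.assoc, e4, comp_zsmul, comp_zsmul, comp_zsmul, e5,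
      smul_sub, smul_sub, sub_sub_cancel, mul_smul, mul_smul, mul_smul]

end Vale.Agent.P251EJ55
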